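import Vale.Agent.P290Z.Nk.SpecB
import Vale.Agent.P290Z.Nk.Std
import Vale.Agent.P268.Hol
import Vale.Agent.P211.HK.LocSys

/-!
# P290Z, part III: local and global square roots of rank one matrices
-/

set_option linter.unusedVariables false

open scoped Manifold ContDiff Topology Real
open Set Filter Metric

noncomputable section

namespace Vale.Agent.P290Z.Nk

open Vale.Agent.P290 Vale.Agent.P267
open Vale.Agent.P290.All (Etale dir Hol)

namespace LF

/-- division by the first coordinate -/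
theorem div {F : C2 → ℂ} {u : ℂ} (hF : ∀ᶠ w in 𝓝 ((0, u) : C2), DifferentiableAt ℂ F w)
    (h0 : ∀ᶠ w in 𝓝 ((0, u) : C2), w.1 = 0 → F w = 0) :
    ∃ φ : C2 → ℂ, ∀ᶠ w in 𝓝 ((0, u) : C2), DifferentiableAt ℂ φ w ∧ F w = w.1 * φ w := by
  obtain ⟨r, hr, h⟩ := Metric.eventually_nhds_iff.1 (hF.and h0)
  have mem : ∀ {z : ℂ} {w : C2}, ‖z‖ < r → w ∈ ball ((0, u) : C2) (r / 3) →
      dist ((z, w.2) : C2) (0, u) < r := fun {z w} h1 h2 => by
    rw [mem_ball, Prod.dist_eq, max_lt_iff] at h2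
    rw [Prod.dist_eq, max_lt_iff, dist_zero_right]
    exact ⟨h1, h2.2.trans (by linarith)⟩
  have m1 : ∀ {w : C2}, w ∈ ball ((0, u) : C2) (r / 3) → ‖w.1‖ < r / 3 := fun h2 => by
    rw [mem_ball, Prod.dist_eq, max_lt_iff, dist_zero_right] at h2
    exact h2.1
  have hW : IsOpen {z : ℂ | r / 3 < ‖z‖ ∧ ‖z‖ < r} :=
    (isOpen_lt continuous_const continuous_norm).inter (isOpen_lt continuous_norm continuous_const)
  have hd := P268.differentiableOn_circleIntegral (c := 0) (R := r / 2)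
    (G := fun p : C2 × ℂ => (p.2 - p.1.1)⁻¹ • (p.2⁻¹ * F (p.2, p.1.2))) (by positivity)
    (isOpen_ball (x := ((0, u) : C2)) (ε := r / 3)) hW
    (fun z hz => by
      rw [mem_sphere_zero_iff_norm] at hz
      exact ⟨by linarith, by linarith⟩)
    (fun p hp => by
      have a1 : p.2 - p.1.1 ≠ 0 := fun e => (m1 hp.1).not_gt (sub_eq_zero.1 e ▸ hp.2.1)
      have a2 : p.2 ≠ 0 := norm_pos_iff.1 (lt_trans (by positivity) hp.2.1)
      have a3 : DifferentiableAt ℂ (fun p : C2 × ℂ => F (p.2, p.1.2)) p :=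
        DifferentiableAt.comp (g := F) (f := fun p : C2 × ℂ => (p.2, p.1.2)) p
          (h (mem hp.2.2 hp.1)).1 (by fun_prop)
      have a4 : DifferentiableAt ℂ (fun p : C2 × ℂ => p.2 - p.1.1) p := by fun_prop
      exact ((a4.inv a1).smul ((differentiableAt_snd.inv a2).mul a3)).differentiableWithinAt)
  have z0 : ∀ w ∈ ball ((0, u) : C2) (r / 3), F (0, w.2) = 0 := fun w hw =>
    (h (mem (by simpa using hr) hw)).2 rfl
  refine ⟨fun w => dslope (fun z => F (z, w.2)) 0 w.1, ?_⟩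
  filter_upwards [ball_mem_nhds _ (by positivity : 0 < r / 3)] with w hw
  refine ⟨((hd.const_smul (2 * π * Complex.I : ℂ)⁻¹).congr fun v hv => ?_).differentiableAt
    (isOpen_ball.mem_nhds hw), ?_⟩
  · have h1 : DifferentiableOn ℂ (fun z => F (z, v.2)) (ball 0 r) := fun z hz =>
      (DifferentiableAt.comp (g := F) (f := fun z : ℂ => (z, v.2)) z
        (h (mem (mem_ball_zero_iff.1 hz) hv)).1 (by fun_prop)).differentiableWithinAt
    have h2 := (((Complex.differentiableOn_dslope (ball_mem_nhds _ hr)).2 h1).mono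
      (closedBall_subset_ball (by linarith : r / 2 < r))).circleIntegral_sub_inv_smul
      (w := v.1) (mem_ball_zero_iff.2 (by linarith [m1 hv]))
    rw [Pi.smul_apply, ← circleIntegral.integral_congr (by positivity) (f := fun z => (z - v.1)⁻¹ •
      dslope (fun z => F (z, v.2)) 0 z) fun z hz => ?_, h2, smul_smul,
      inv_mul_cancel₀ Complex.two_pi_I_ne_zero, one_smul]
    have h3 : z ≠ 0 := by
      rintro rfl
      rw [mem_sphere_zero_iff_norm, norm_zero] at hz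
      linarith
    simp only [dslope_of_ne _ h3, slope_def_module, z0 v hv, sub_zero, smul_eq_mul]
  · have e := sub_smul_dslope (fun z => F (z, w.2)) 0 w.1
    rw [z0 w hw, sub_zero, sub_zero, smul_eq_mul] at e
    exact e.symm

/-- local square roots -/
theorem sqrt_loc {φ : C2 → ℂ} {p : C2} (h : ∀ᶠ w in 𝓝 p, DifferentiableAt ℂ φ w) (h0 : φ p ≠ 0) :
    ∃ κ : C2 → ℂ, ∀ᶠ w in 𝓝 p, DifferentiableAt ℂ κ w ∧ κ w ≠ 0 ∧ κ w ^ 2 = φ w := by
  have h1 : ∀ᶠ w in 𝓝 p, φ w / φ p ∈ Complex.slitPlane :=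
    (h.self_of_nhds.continuousAt.div_const _).eventually (Complex.isOpen_slitPlane.mem_nhds (by
      simp [div_self h0]))
  refine ⟨fun w => φ p ^ (2⁻¹ : ℂ) * (φ w / φ p) ^ (2⁻¹ : ℂ), ?_⟩
  filter_upwards [h, h1, h.self_of_nhds.continuousAt.eventually_ne h0] with w a1 a2 a3
  have e : (φ p ^ (2⁻¹ : ℂ) * (φ w / φ p) ^ (2⁻¹ : ℂ)) ^ 2 = φ w := by
    rw [mul_pow, Complex.cpow_ofNat_inv_pow, Complex.cpow_ofNat_inv_pow, mul_div_cancel₀ _ h0]
  have a4 : DifferentiableAt ℂ (fun w => φ w / φ p) w := by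
    simp only [div_eq_mul_inv]
    exact a1.mul_const _
  refine ⟨(a4.cpow (differentiableAt_const _) a2).const_mul _, fun e' => a3 ?_, e⟩
  rw [← e, e', zero_pow two_ne_zero]

variable {ι : Type} [Fintype ι]

theorem pm {w w' : EuclideanSpace ℂ ι} (h : ∀ j k, w j * w k = w' j * w' k) :
    w' = w ∨ w' = -w := by
  by_cases h0 : ∀ j, w j = 0
  · left
    ext j
    rw [h0, ← mul_self_eq_zero, ← h, h0, mul_zero]
  obtain ⟨j, hj⟩ := not_forall.1 h0
  rcases mul_self_eq_mul_self_iff.1 (h j j).symm with e | e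
  · left
    ext k
    exact mul_left_cancel₀ hj (by rw [h j k, e])
  · right
    ext k
    exact mul_left_cancel₀ hj (by rw [PiLp.neg_apply, mul_neg, h j k, e, neg_mul, neg_neg])

omit [Fintype ι] in
theorem add_self_ne {w : EuclideanSpace ℂ ι} (h : w ≠ 0) : w + w ≠ 0 := by
  rw [← two_smul ℂ w]
  exact smul_ne_zero two_ne_zero h

variable {X : Type} [TopologicalSpace X]

/-- the sign is locally constant -/
theorem sign_loc {w w' : X → EuclideanSpace ℂ ι} {p : X} (hw : ContinuousAt w p)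
    (hw' : ContinuousAt w' p) (h : ∀ᶠ q in 𝓝 p, ∀ j k, w q j * w q k = w' q j * w' q k)
    (h0 : w p ≠ 0) (e : w' p = w p) : ∀ᶠ q in 𝓝 p, w' q = w q := by
  filter_upwards [h, (hw'.add hw).eventually_ne (y := 0) (by
    rw [Pi.add_apply, e]; exact add_self_ne h0)] with q a1 a2
  exact (pm a1).resolve_right fun a3 => a2 (by rw [Pi.add_apply, a3, neg_add_cancel])

/-- the sign is constant on connected sets -/
theorem sign_const {w w' : X → EuclideanSpace ℂ ι} {Z : Set X} (hZ : IsPreconnected Z)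
    (hw : ∀ z ∈ Z, ContinuousAt w z) (hw' : ∀ z ∈ Z, ContinuousAt w' z)
    (h : ∀ z ∈ Z, ∀ j k, w z j * w z k = w' z j * w' z k) :
    (∀ z ∈ Z, w z ≠ 0) → (∀ z ∈ Z, w' z = w z) ∨ ∀ z ∈ Z, w' z = -w z := by
  intro h0
  by_contra hc
  push Not at hc
  obtain ⟨⟨a, ha, ha'⟩, b, hb, hb'⟩ := hc
  have e1 : ∀ z ∈ Z, w' z ≠ w z → ∀ᶠ q in 𝓝 z, w' q - w q ≠ 0 := fun z hz e =>
    ((hw' z hz).sub (hw z hz)).eventually_ne (sub_ne_zero.2 e)
  have e2 : ∀ z ∈ Z, w' z ≠ -w z → ∀ᶠ q in 𝓝 z, w' q + w q ≠ 0 := fun z hz e =>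
    ((hw' z hz).add (hw z hz)).eventually_ne fun e' => e (eq_neg_of_add_eq_zero_left e')
  obtain ⟨z, hz, z1, z2⟩ := hZ {z | ∀ᶠ q in 𝓝 z, w' q - w q ≠ 0} {z | ∀ᶠ q in 𝓝 z, w' q + w q ≠ 0}
    isOpen_setOfPred_eventually_nhds isOpen_setOfPred_eventually_nhds (fun z hz => by
      by_cases e : w' z = w z
      · exact Or.inr (e2 z hz fun e' => add_self_ne (h0 z hz)
          (add_eq_zero_iff_eq_neg.2 (e.symm.trans e')))
      · exact Or.inl (e1 z hz e)) ⟨a, ha, e1 a ha ha'⟩ ⟨b, hb, e2 b hb hb'⟩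
  rcases pm (h z hz) with e | e
  · exact z1.self_of_nhds (sub_eq_zero.2 e)
  · exact z2.self_of_nhds (add_eq_zero_iff_eq_neg.2 e)

/-- global square roots on simply connected spaces -/
theorem glob [SimplyConnectedSpace X] [LocallyPathConnectedSpace X] (M : X → ι → ι → ℂ)
    (h : ∀ p, ∃ E : X → EuclideanSpace ℂ ι, ∀ᶠ q in 𝓝 p, ContinuousAt E q ∧ E q ≠ 0 ∧
      ∀ j k, E q j * E q k = M q j k) :
    ∃ E : X → EuclideanSpace ℂ ι, Continuous E ∧ ∀ q, E q ≠ 0 ∧ ∀ j k, E q j * E q k = M q j k := by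
  classical
  choose E hE using h
  let F : X → Type := fun q => {w : EuclideanSpace ℂ ι // w ≠ 0 ∧ ∀ j k, w j * w k = M q j k}
  have H : P211.HK.LocSys (X := X) (F := F)
      (fun p s => ∀ᶠ q in 𝓝 p, ContinuousAt (fun y => (s y).1) q) := by
    refine ⟨fun p s hs => hs.eventually_nhds, fun p s s' hs hs' he => ?_,
      fun p s s' hs hs' hf => ?_, fun p s s' hs he => ?_, fun p => ?_⟩
    · exact (sign_loc hs'.self_of_nhds hs.self_of_nhds (Eventually.of_forall fun q j k =>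
        ((s' q).2.2 j k).trans ((s q).2.2 j k).symm) (s' p).2.1 (congrArg Subtype.val he)).mono
        fun q hq => Subtype.ext hq
    · exact Subtype.ext (tendsto_nhds_unique_of_frequently_eq hs.self_of_nhds hs'.self_of_nhds
        (hf.mono fun q hq => congrArg Subtype.val hq))
    · filter_upwards [hs, he.eventually_nhds] with q a1 a2
      exact a1.congr (a2.mono fun y hy => congrArg Subtype.val hy)
    · obtain ⟨U, hU, hUo, hp⟩ := _root_.eventually_nhds_iff.1 (hE p)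
      refine ⟨U, hUo.mem_nhds hp, fun q hq v => ?_⟩
      obtain ⟨c, hc, hv⟩ : ∃ c : ℂ, c * c = 1 ∧ v.1 = c • E p q := by
        rcases pm fun j k => ((hU q hq).2.2 j k).trans (v.2.2 j k).symm with e | e
        · exact ⟨1, one_mul _, by rw [e, one_smul]⟩
        · exact ⟨-1, by simp, by rw [e, neg_one_smul]⟩
      refine ⟨fun y => if hy : y ∈ U then ⟨c • E p y, smul_ne_zero
        (left_ne_zero_of_mul_eq_one hc) (hU y hy).2.1, fun j k => ?_⟩
        else ⟨E y y, (hE y).self_of_nhds.2⟩, Subtype.ext ?_, fun y hy => ?_⟩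
      · rw [← (hU y hy).2.2, PiLp.smul_apply, PiLp.smul_apply, smul_eq_mul, smul_eq_mul]
        linear_combination E p y j * E p y k * hc
      · simp only [dif_pos hq, hv]
      · filter_upwards [hUo.mem_nhds hy] with z hz
        refine ((hU z hz).1.const_smul c).congr ?_
        filter_upwards [hUo.mem_nhds hz] with x hx
        simp only [dif_pos hx, Pi.smul_apply]
  obtain ⟨p⟩ := (inferInstance : Nonempty X)
  obtain ⟨s, ⟨-, hs⟩, -⟩ := H.existsUnique p ⟨E p p, (hE p).self_of_nhds.2⟩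
  exact ⟨fun y => (s y).1, continuous_iff_continuousAt.2 fun y => (hs y).self_of_nhds,
    fun y => (s y).2⟩

/-! ### the section `S` in a standard chart -/

variable {Y : W.K3} {n : ℕ} {K : Nik Y n}

theorem frame_cont {U : Set Y.X} {e : Y.X → EuclideanSpace ℂ K.ι} (he : H821.HolFrame K.L K.a U e)
    {y : Y.X} (hy : y ∈ U) : ContinuousAt e y := by
  have h0 := (chartAt FL.C2 y).left_inv (mem_chart_source FL.C2 y)
  have h1 := (he.reg _ (chart_mem_atlas FL.C2 y) _ (mem_chart_target FL.C2 y)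
    (by rwa [h0])).continuousAt
  refine (h1.comp ((chartAt FL.C2 y).continuousAt (mem_chart_source FL.C2 y))).congr ?_
  filter_upwards [chart_source_mem_nhds FL.C2 y] with x hx
  rw [Function.comp, (chartAt FL.C2 y).left_inv hx]

theorem hol_chart {U : Set Y.X} {f : Y.X → ℂ} (hU : IsOpen U) (hf : FL.HolOn 0 f U) {y : Y.X}
    (hy : y ∈ U) : DifferentiableAt ℂ (fun z => f ((chartAt C2 y).symm z)) (chartAt C2 y y) := by
  have h0 := (chartAt FL.C2 y).left_inv (mem_chart_source FL.C2 y)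
  have h1 := (hf _ (chart_mem_atlas FL.C2 y)).differentiableAt
    (((chartAt FL.C2 y).isOpen_inter_preimage_symm hU).mem_nhds
      ⟨mem_chart_target FL.C2 y, by rwa [mem_preimage, h0]⟩)
  rw [FL.LB.loc0_zero] at h1
  exact DifferentiableAt.comp (g := f ∘ (chartAt FL.C2 y).symm) (f := H445.φ) (chartAt C2 y y) h1
    H445.φ.differentiableAt

theorem comp_eq {m : C2 → Y.X} {w : C2} (hm : Etale m w) (f : Y.X → ℂ) :
    (fun v => f (m v)) =ᶠ[𝓝 w]
      (fun z => f ((chartAt C2 (m w)).symm z)) ∘ fun v => chartAt C2 (m w) (m v) := by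
  filter_upwards [hm.1.eventually (chart_source_mem_nhds C2 (m w))] with v hv
  rw [Function.comp, (chartAt C2 (m w)).left_inv hv]

/-- the local square root -/
theorem loc (K : Nik Y n) {m : C2 → Y.X} {p : C2}
    (hm : ∀ᶠ w in 𝓝 p, Etale m w ∧ (m w ∈ K.br ↔ w.1 = 0)) :
    ∃ (U : Set Y.X) (e : Y.X → EuclideanSpace ℂ K.ι) (κ : C2 → ℂ), H821.HolFrame K.L K.a U e ∧
      ∀ᶠ w in 𝓝 p, m w ∈ U ∧ DifferentiableAt ℂ κ w ∧ κ w ≠ 0 ∧
        ∀ j k, K.S (m w) j k = w.1 * ((κ w • e (m w)) j * (κ w • e (m w)) k) := by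
  obtain ⟨U, e, f, hx, he, hf, h⟩ := K.loc (m p)
  have hU : ∀ᶠ w in 𝓝 p, m w ∈ U := hm.self_of_nhds.1.1.eventually (he.isOpen.mem_nhds hx)
  have hF : ∀ᶠ w in 𝓝 p, DifferentiableAt ℂ (fun v => f (m v)) w := by
    filter_upwards [hm, hU] with w a1 a2
    exact ((hol_chart he.isOpen hf a2).comp w a1.1.2.1).congr_of_eventuallyEq (comp_eq a1.1 f)
  obtain ⟨φ, h1, h2⟩ : ∃ φ : C2 → ℂ, φ p ≠ 0 ∧
      ∀ᶠ w in 𝓝 p, DifferentiableAt ℂ φ w ∧ f (m w) = w.1 * φ w := by
    by_cases hp : p.1 = 0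
    · obtain ⟨h', u⟩ := p
      obtain rfl : h' = 0 := hp
      obtain ⟨φ, hφ⟩ := div hF (by
        filter_upwards [hm, hU] with w a1 a2 a3
        exact (h _ a2).2.1.2 (a1.2.2 a3))
      refine ⟨φ, fun h0 => ?_, hφ⟩
      have a1 := hm.self_of_nhds
      refine (h _ hx).2.2 ((h _ hx).2.1.2 (a1.2.2 rfl)) ?_
      have a2 : fderiv ℂ (fun v => f (m v)) (0, u) = 0 := by
        rw [EventuallyEq.fderiv_eq (f := fun w : C2 => w.1 * φ w) (hφ.mono fun w hw => hw.2),
          fderiv_fun_mul differentiableAt_fst hφ.self_of_nhds.1, h0]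
        ext <;> simp
      rw [(comp_eq a1.1 f).fderiv_eq, fderiv_comp (f := fun v => chartAt C2 (m (0, u)) (m v))
        (0, u) (hol_chart he.isOpen hf hx) a1.1.2.1] at a2
      have a3 := (LinearMap.injective_iff_surjective (f := (fderiv ℂ
        (fun v => chartAt C2 (m (0, u)) (m v)) (0, u) : C2 →ₗ[ℂ] C2))).1
        (Inv.det_ne_iff.1 a1.1.2.2)
      refine ContinuousLinearMap.ext fun z => ?_
      obtain ⟨v, rfl⟩ := a3 z
      exact congrArg (fun L : C2 →L[ℂ] ℂ => L v) a2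
    · refine ⟨fun w => f (m w) / w.1, div_ne_zero (fun h0 => hp ?_) hp, ?_⟩
      · exact hm.self_of_nhds.2.1 ((h _ hx).2.1.1 h0)
      · filter_upwards [hF, continuousAt_fst.eventually_ne hp] with w a1 a2
        exact ⟨a1.mul (differentiableAt_fst.inv a2), (mul_div_cancel₀ _ a2).symm⟩
  obtain ⟨κ, hκ⟩ := sqrt_loc (h2.mono fun w hw => hw.1) h1
  refine ⟨U, e, κ, he, ?_⟩
  filter_upwards [hU, h2, hκ] with w a1 a2 a3
  refine ⟨a1, a3.1, a3.2.1, fun j k => ?_⟩
  rw [(h _ a1).1, a2.2, ← a3.2.2, PiLp.smul_apply, PiLp.smul_apply, smul_eq_mul, smul_eq_mul]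
  ring

end LF

end Vale.Agent.P290Z.Nk
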